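import Vale.Agent.P318.H885.PRG
import Vale.Agent.P318.H766.Bucket
import Vale.Agent.P318.H937.Defs

/-!
# The pseudorandom generator for characters on a good code (P318, module PRG, final form)
-/

namespace Vale.Agent.P318.H885

open Finset Vale.Agent.P318.H689 Vale.Agent.P318.H937

/-- the one-bucket estimate for a code -/
theorem oneBucket_sub {X : Type*} [Fintype X] [DecidableEq X]
    (V : Submodule (ZMod 2) (X → ZMod 2)) [Fintype V] (k : ℕ) (hke : Even k) (hk2 : 2 ≤ k)
    (hk : ∀ U : Finset X, U.Nonempty → U.card ≤ k → ∃ v ∈ V, ∑ x ∈ U, v x ≠ 0) :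
    OneBucket (vs V) (2 * Real.exp 1 / k) := by
  intro a β
  have hkw := kw_sub V k hk
  have h := H766.bucket hke hk2 (y := vs V) ⟨hkw.sq, fun U hU hUk => hkw.van U hU hUk⟩ a β
  have e : 2 * Real.exp 1 * (∑ x, a x ^ 2) / k = 2 * Real.exp 1 / k * ∑ x, a x ^ 2 := by ring
  rw [e] at h
  exact h

/-- **PRG for characters on a good code.**  `c` = coefficients of a multilinear polynomial of
degree at most `m`; `β = -π/2` gives the sine. -/
theorem prg_goodCode {X : Type} [AddCommGroup X] [Module (ZMod 2) X] [Fintype X] [DecidableEq X]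
    {κ s d k D : ℕ} {pc : ℝ} {V V1 : Submodule (ZMod 2) (X → ZMod 2)} [Fintype V]
    {Γ : Type} {g : Γ → X → ZMod 2} (hG : GoodCode X κ s d k D pc V V1 Γ g)
    (k' : ℕ) (hke : Even k') (hk2 : 2 ≤ k') (hkk : k' ≤ k)
    (c : Finset X → ℝ) (m : ℕ) (hm : ∀ S, m < S.card → c S = 0) (hmk : 2 * m ≤ k') (β ξ : ℝ) :
    |Ex (fun v : V => Real.cos (β + ξ * ev c fun x => zs (v.1 x))) -
      Ex (fun w : X → Bool => Real.cos (β + ξ * ev c fun x => sg (w x)))| ≤
      2 * |ξ| * (m * Real.sqrt (pc * ∑ S, c S ^ 2)) + 2 * Real.exp 1 / k' * ξ ^ 2 * tinf c := by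
  classical
  have hind : ∀ U : Finset X, U.Nonempty → U.card ≤ k' → ∃ v ∈ V1, ∑ x ∈ U, v x ≠ 0 := by
    intro U hU hUk
    have hne : (fun x => if x ∈ U then (1 : ZMod 2) else 0) ≠ 0 := by
      obtain ⟨x, hx⟩ := hU
      intro h0
      have := congrFun h0 x
      simp [hx] at this
    have hsz : sz (fun x => if x ∈ U then (1 : ZMod 2) else 0) ≤ k := by
      have : (univ.filter fun x => (fun x => if x ∈ U then (1 : ZMod 2) else 0) x ≠ 0) = U := by
        ext x
        simp
      unfold sz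
      rw [this]
      omega
    obtain ⟨v, hv, hp⟩ := hG.indep _ hne hsz
    refine ⟨v, hv, ?_⟩
    have : ∑ x ∈ U, v x = pair (fun x => if x ∈ U then (1 : ZMod 2) else 0) v := by
      unfold pair
      simp
    rw [this, hp]
    decide
  have hindV : ∀ U : Finset X, U.Nonempty → U.card ≤ k' → ∃ v ∈ V, ∑ x ∈ U, v x ≠ 0 := by
    intro U hU hUk
    obtain ⟨v, hv, hne⟩ := hind U hU hUk
    exact ⟨v, hG.le hv, hne⟩
  have : Fintype V1 := Fintype.ofFinite V1
  obtain ⟨Θ, hfin, hnon, t, h, hcoll, hcomb⟩ := hG.hash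
  have : Fintype Θ := Fintype.ofFinite Θ
  have hcoll' : ∀ x x' : X, x ≠ x' →
      ((univ.filter fun θ => h θ x = h θ x').card : ℝ) ≤ pc * Fintype.card Θ := by
    intro x x' hxx
    have := hcoll x x' hxx
    rw [Nat.card_eq_fintype_card, Nat.card_eq_fintype_card, Fintype.card_subtype] at this
    exact this
  have hcomb' : ∀ θ, ∀ z : Fin t → V1, (fun x => (z (h θ x)).1 x) ∈ V :=
    fun θ z => hcomb θ (fun j => (z j).1) fun j => (z j).2
  have hK : (0 : ℝ) ≤ 2 * Real.exp 1 / k' := by positivity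
  have hOB := oneBucket_sub V1 k' hke hk2 hind
  by_cases hp : 0 ≤ pc
  · have := prg V V1 k' hindV _ hK hOB h hcomb' pc hp
      (by intro x x' hxx; convert hcoll' x x' hxx) c m hm hmk β ξ
    exact this
  · have hsub : ∀ x x' : X, x ≠ x' → False := by
      intro x x' hxx
      have h1 := (Nat.cast_nonneg _).trans (hcoll' x x' hxx)
      have hΘ : (0 : ℝ) < Fintype.card Θ := by exact_mod_cast Fintype.card_pos
      exact hp (nonneg_of_mul_nonneg_left h1 hΘ)
    have := prg V V1 k' hindV _ hK hOB h hcomb' 0 le_rfl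
      (fun x x' hxx => (hsub x x' hxx).elim) c m hm hmk β ξ
    refine this.trans ?_
    rw [zero_mul, Real.sqrt_zero, mul_zero, mul_zero, zero_add]
    have : 0 ≤ 2 * |ξ| * (m * Real.sqrt (pc * ∑ S, c S ^ 2)) := by positivity
    linarith

end Vale.Agent.P318.H885
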