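import Vale.Agent.P318.H689.Cube

/-!
# Bucket replacement (P318, module PRG)

`Kw y k`: a finite family of sign vectors with vanishing moments up to order `k`.
Main result `hybrid`: replacing the `k`-wise independent signs by independent signs, bucket by
bucket, inside `cos (β + ξ * ev c u)` for `c` supported on sets on which the hash `h` is injective.
-/

namespace Vale.Agent.P318.H885

open Finset Vale.Agent.P318.H689

variable {X : Type*} [Fintype X] [DecidableEq X]

section ExMore

variable {α β : Type*} [Fintype α] [Fintype β]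

theorem Ex_comm (f : α → β → ℝ) :
    Ex (fun a => Ex fun b => f a b) = Ex (fun b => Ex fun a => f a b) := by
  simp only [Ex]
  rw [← Finset.sum_div, ← Finset.sum_div, Finset.sum_comm, div_div, div_div, mul_comm]

/-- resampling of the coordinates in a set -/
theorem Ex_resample {Ω : Type*} [Fintype Ω] (p : X → Prop) [DecidablePred p] (F : (X → Ω) → ℝ) :
    Ex F = Ex fun w : X → Ω => Ex fun w' : X → Ω => F fun x => if p x then w' x else w x := by
  rcases isEmpty_or_nonempty (X → Ω) with hΩ | hΩ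
  · simp [Ex]
  · have hc : (Fintype.card (X → Ω) : ℝ) ≠ 0 := by exact_mod_cast Fintype.card_ne_zero
    have hs : ∑ q : (X → Ω) × (X → Ω), F (fun x => if p x then q.2 x else q.1 x) =
        ∑ q : (X → Ω) × (X → Ω), F q.1 := by
      refine Fintype.sum_equiv
        ⟨fun q => (fun x => if p x then q.2 x else q.1 x, fun x => if p x then q.1 x else q.2 x),
         fun q => (fun x => if p x then q.2 x else q.1 x, fun x => if p x then q.1 x else q.2 x),
          fun q => ?_, fun q => ?_⟩ _ _ fun q => rfl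
      · ext x <;> by_cases hx : p x <;> simp [hx]
      · ext x <;> by_cases hx : p x <;> simp [hx]
    rw [Fintype.sum_prod_type, Fintype.sum_prod_type] at hs
    simp only [sum_const, card_univ, nsmul_eq_mul, ← mul_sum] at hs
    simp only [Ex]
    rw [← sum_div, hs]
    field_simp

/-- flipping signs does not change the law of the cube -/
theorem Ex_flip (r : X → ℝ) (hr : ∀ x, r x ^ 2 = 1) (F : (X → ℝ) → ℝ) :
    Ex (fun w : X → Bool => F fun x => r x * sg (w x)) =
      Ex fun w : X → Bool => F fun x => sg (w x) := by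
  classical
  have hr' : ∀ x, r x = 1 ∨ r x = -1 := fun x => by
    have h := hr x
    have : (r x - 1) * (r x + 1) = 0 := by ring_nf; linarith
    rcases mul_eq_zero.1 this with h | h
    · left; linarith
    · right; linarith
  let e : (X → Bool) ≃ (X → Bool) :=
    ⟨fun w x => if r x = 1 then w x else !(w x), fun w x => if r x = 1 then w x else !(w x),
      fun w => by funext x; by_cases hx : r x = 1 <;> simp [hx],
      fun w => by funext x; by_cases hx : r x = 1 <;> simp [hx]⟩
  rw [← Ex_equiv e (fun w : X → Bool => F fun x => sg (w x))]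
  refine Ex_congr fun w => ?_
  congr 1
  funext x
  show r x * sg (w x) = sg (if r x = 1 then w x else !(w x))
  rcases hr' x with h | h
  · simp [h]
  · have h1 : ¬ (r x = 1) := by rw [h]; norm_num
    rw [if_neg h1, h]
    cases w x <;> simp

end ExMore

/-- A finite family of sign vectors with vanishing moments up to order `k`. -/
structure Kw {Ω : Type*} [Fintype Ω] (y : Ω → X → ℝ) (k : ℕ) : Prop where
  sq : ∀ ω x, y ω x ^ 2 = 1
  van : ∀ U : Finset X, U.Nonempty → U.card ≤ k → Ex (fun ω => ∏ x ∈ U, y ω x) = 0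

omit [Fintype X] in
theorem prod_mul_prod (u : X → ℝ) (hu : ∀ x, u x ^ 2 = 1) (S T : Finset X) :
    (∏ x ∈ S, u x) * ∏ x ∈ T, u x = ∏ x ∈ symmDiff S T, u x := by
  have h1 : (∏ x ∈ S, u x) = (∏ x ∈ S \ T, u x) * ∏ x ∈ S ∩ T, u x := by
    rw [mul_comm, prod_inter_mul_prod_sdiff]
  have h2 : (∏ x ∈ T, u x) = (∏ x ∈ T \ S, u x) * ∏ x ∈ S ∩ T, u x := by
    rw [mul_comm, inter_comm, prod_inter_mul_prod_sdiff]
  have h3 : (∏ x ∈ S ∩ T, u x) * ∏ x ∈ S ∩ T, u x = 1 := by
    rw [← prod_mul_distrib]
    exact prod_eq_one fun x _ => by rw [← sq]; exact hu x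
  have h4 : symmDiff S T = (S \ T) ∪ (T \ S) := rfl
  have h5 : Disjoint (S \ T) (T \ S) := by
    rw [disjoint_left]
    intro x hx hx'
    simp only [mem_sdiff] at hx hx'
    exact hx.2 hx'.1
  rw [h4, prod_union h5, h1, h2]
  calc _ = (∏ x ∈ S \ T, u x) * (∏ x ∈ T \ S, u x) *
        ((∏ x ∈ S ∩ T, u x) * ∏ x ∈ S ∩ T, u x) := by ring
    _ = _ := by rw [h3, mul_one]

theorem Kw.Ex_ev_sq {Ω : Type*} [Fintype Ω] [Nonempty Ω] {y : Ω → X → ℝ} {k : ℕ} (hy : Kw y k)
    (c : Finset X → ℝ) (d : ℕ) (hc : ∀ S, d < S.card → c S = 0) (hk : 2 * d ≤ k) :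
    Ex (fun ω => ev c (y ω) ^ 2) = ∑ S, c S ^ 2 := by
  have h1 : ∀ ω, ev c (y ω) ^ 2 =
      ∑ S : Finset X, ∑ T : Finset X, c S * c T * ∏ x ∈ symmDiff S T, y ω x := by
    intro ω
    unfold ev
    rw [pow_two, sum_mul_sum]
    refine sum_congr rfl fun S _ => sum_congr rfl fun T _ => ?_
    rw [← prod_mul_prod (y ω) (hy.sq ω)]
    ring
  rw [Ex_congr h1, Ex_sum]
  refine sum_congr rfl fun S _ => ?_
  rw [Ex_sum, Finset.sum_eq_single S]
  · rw [symmDiff_self]
    simp only [bot_eq_empty, prod_empty, mul_one]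
    rw [Ex_const, pow_two]
  · intro T _ hT
    rw [Ex_const_mul]
    by_cases hS0 : c S = 0
    · simp [hS0]
    by_cases hT0 : c T = 0
    · simp [hT0]
    have hS : S.card ≤ d := by
      by_contra h
      exact hS0 (hc S (by omega))
    have hT' : T.card ≤ d := by
      by_contra h
      exact hT0 (hc T (by omega))
    rw [hy.van (symmDiff S T), mul_zero]
    · rw [Finset.nonempty_iff_ne_empty]
      intro h
      exact hT (symmDiff_eq_bot.1 h).symm
    · have : (symmDiff S T).card ≤ S.card + T.card := by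
        have h4 : symmDiff S T = (S \ T) ∪ (T \ S) := rfl
        rw [h4]
        exact (card_union_le _ _).trans (Nat.add_le_add (card_le_card sdiff_subset)
          (card_le_card sdiff_subset))
      omega
  · intro h
    exact absurd (mem_univ _) h

/-- the twisted version -/
theorem Kw.Ex_ev_twist_sq {Ω : Type*} [Fintype Ω] [Nonempty Ω] {y : Ω → X → ℝ} {k : ℕ}
    (hy : Kw y k) (r : X → ℝ) (hr : ∀ x, r x ^ 2 = 1)
    (c : Finset X → ℝ) (d : ℕ) (hc : ∀ S, d < S.card → c S = 0) (hk : 2 * d ≤ k) :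
    Ex (fun ω => ev c (fun x => y ω x * r x) ^ 2) = ∑ S, c S ^ 2 := by
  have h1 : ∀ ω, ev c (fun x => y ω x * r x) = ev (fun S => c S * ∏ x ∈ S, r x) (y ω) := by
    intro ω
    unfold ev
    refine sum_congr rfl fun S _ => ?_
    rw [prod_mul_distrib]
    ring
  rw [Ex_congr fun ω => by rw [h1 ω], hy.Ex_ev_sq _ d _ hk]
  · refine sum_congr rfl fun S _ => ?_
    rw [mul_pow, ← prod_pow, prod_eq_one fun x _ => hr x, mul_one]
  · intro S hS
    rw [hc S hS, zero_mul]

/-! ### derivatives -/

/-- the coefficients of the derivative in direction `x` -/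
def der (c : Finset X → ℝ) (x : X) : Finset X → ℝ := fun T => if x ∈ T then 0 else c (insert x T)

omit [Fintype X] in
theorem der_card (c : Finset X → ℝ) (x : X) (d : ℕ) (hc : ∀ S, d < S.card → c S = 0) :
    ∀ S, d < S.card → der c x S = 0 := by
  intro S hS
  unfold der
  split_ifs with h
  · rfl
  · apply hc
    rw [card_insert_of_notMem h]
    omega

theorem sum_der (c : Finset X → ℝ) (x : X) (g : Finset X → ℝ → ℝ) (h0 : ∀ T, g T 0 = 0) :
    ∑ T, g T (der c x T) = ∑ S, if x ∈ S then g (S.erase x) (c S) else 0 := by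
  have h1 : ∑ T, g T (der c x T) = ∑ T ∈ univ.filter (fun T : Finset X => x ∉ T),
      g T (c (insert x T)) := by
    rw [sum_filter]
    refine sum_congr rfl fun T _ => ?_
    unfold der
    by_cases h : x ∈ T <;> simp [h, h0]
  rw [h1, ← sum_filter]
  refine sum_nbij' (fun T => insert x T) (fun S => S.erase x) ?_ ?_ ?_ ?_ ?_
  · intro T _
    simp
  · intro S _
    simp
  · intro T hT
    simp only [mem_filter, mem_univ, true_and] at hT
    exact erase_insert hT
  · intro S hS
    simp only [mem_filter, mem_univ, true_and] at hS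
    exact insert_erase hS
  · intro T hT
    simp only [mem_filter, mem_univ, true_and] at hT
    simp only [erase_insert hT]

theorem sum_der_sq (c : Finset X → ℝ) (x : X) : ∑ T, der c x T ^ 2 = H689.inf c x := by
  have := sum_der c x (fun _ a => a ^ 2) (by simp)
  simpa [H689.inf] using this

theorem mul_ev_der (c : Finset X → ℝ) (x : X) (u : X → ℝ) :
    u x * ev (der c x) u = ∑ S, if x ∈ S then c S * ∏ k ∈ S, u k else 0 := by
  have h := sum_der c x (fun T a => a * ∏ k ∈ T, u k) (by simp)
  unfold ev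
  rw [h, mul_sum]
  refine sum_congr rfl fun S _ => ?_
  split_ifs with hx
  · rw [← mul_prod_erase S u hx]
    ring
  · rw [mul_zero]

section bucket

variable {J : Type*} [DecidableEq J] (h : X → J)

/-- the part of the polynomial outside the bucket `j` -/
noncomputable def outP (c : Finset X → ℝ) (j : J) (u : X → ℝ) : ℝ :=
  ∑ S : Finset X, if ∀ x ∈ S, h x ≠ j then c S * ∏ k ∈ S, u k else 0

/-- decomposition with respect to a bucket -/
theorem ev_bucket (c : Finset X → ℝ) (hc : ∀ S, c S ≠ 0 → Set.InjOn h (S : Set X)) (j : J)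
    (u : X → ℝ) :
    ev c u = outP h c j u + ∑ x, if h x = j then u x * ev (der c x) u else 0 := by
  have h1 : (∑ x, if h x = j then u x * ev (der c x) u else 0) =
      ∑ S : Finset X, (c S * ∏ k ∈ S, u k) * (S.filter fun x => h x = j).card := by
    simp only [mul_ev_der]
    have : ∀ x, (if h x = j then ∑ S : Finset X, (if x ∈ S then c S * ∏ k ∈ S, u k else 0) else 0)
        = ∑ S : Finset X, if x ∈ S ∧ h x = j then c S * ∏ k ∈ S, u k else 0 := by
      intro x
      by_cases hx : h x = j
      · simp [hx]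
      · simp [hx]
    rw [sum_congr rfl fun x _ => this x, sum_comm]
    refine sum_congr rfl fun S _ => ?_
    rw [← sum_filter, sum_const, nsmul_eq_mul, mul_comm]
    congr 2
    congr 1
    ext x
    simp
  rw [h1]
  unfold ev outP
  rw [← sum_add_distrib]
  refine sum_congr rfl fun S _ => ?_
  by_cases hS : c S = 0
  · simp [hS]
  have hinj := hc S hS
  by_cases hall : ∀ x ∈ S, h x ≠ j
  · have : (S.filter fun x => h x = j).card = 0 := by
      rw [card_eq_zero, filter_eq_empty_iff]
      exact fun x hx => hall x hx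
    rw [if_pos hall, this]
    simp
  · have : (S.filter fun x => h x = j).card = 1 := by
      push Not at hall
      obtain ⟨x, hx, hxj⟩ := hall
      rw [card_eq_one]
      refine ⟨x, ?_⟩
      ext y
      simp only [mem_filter, mem_singleton]
      constructor
      · rintro ⟨hy, hyj⟩
        exact hinj (mem_coe.2 hy) (mem_coe.2 hx) (hyj.trans hxj.symm)
      · rintro rfl
        exact ⟨hx, hxj⟩
    rw [if_neg hall, this]
    simp

/-- `outP` does not see the bucket -/
theorem outP_congr (c : Finset X → ℝ) (j : J) (u u' : X → ℝ) (huu : ∀ x, h x ≠ j → u x = u' x) :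
    outP h c j u = outP h c j u' := by
  unfold outP
  refine sum_congr rfl fun S _ => ?_
  split_ifs with hS
  · rw [prod_congr rfl fun x hx => huu x (hS x hx)]
  · rfl

omit [DecidableEq J] in
/-- the derivative in direction `x` does not see the bucket of `x` -/
theorem ev_der_congr (c : Finset X → ℝ) (hc : ∀ S, c S ≠ 0 → Set.InjOn h (S : Set X)) (x : X)
    (u u' : X → ℝ) (huu : ∀ x', h x' ≠ h x → u x' = u' x') :
    ev (der c x) u = ev (der c x) u' := by
  unfold ev
  refine sum_congr rfl fun T _ => ?_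
  unfold der
  split_ifs with hx
  · simp
  by_cases h0 : c (insert x T) = 0
  · simp [h0]
  have hinj := hc _ h0
  rw [prod_congr rfl fun y hy => huu y ?_]
  intro hyx
  have : y = x := hinj (by simp [hy]) (by simp) hyx
  exact hx (this ▸ hy)

/-- what happens when the signs in the bucket `j` are `u₀ x * s x` -/
theorem ev_mix (c : Finset X → ℝ) (hc : ∀ S, c S ≠ 0 → Set.InjOn h (S : Set X)) (j : J)
    (u u₀ s : X → ℝ) :
    ev c (fun x => if h x = j then u₀ x * s x else u x) =
      outP h c j u + ∑ x, (if h x = j then u₀ x * ev (der c x) u else 0) * s x := by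
  rw [ev_bucket h c hc j]
  congr 1
  · apply outP_congr
    intro x hx
    simp [hx]
  · refine sum_congr rfl fun x _ => ?_
    by_cases hx : h x = j
    · simp only [hx, if_true]
      rw [ev_der_congr h c hc x _ u]
      · ring
      · intro x' hx'
        rw [hx] at hx'
        simp [hx']
    · simp [hx]

end bucket

section hybrid

variable {J : Type*} [Fintype J] [DecidableEq J] (h : X → J)
variable {Ω₀ Ω₁ : Type*} [Fintype Ω₀] [Nonempty Ω₀] [Fintype Ω₁] [Nonempty Ω₁]

/-- the mixed point: buckets in `A` are filled with independent signs -/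
noncomputable def mixpt (y₀ : Ω₀ → X → ℝ) (y₁ : Ω₁ → X → ℝ) (A : Finset J) (v : Ω₀) (z : J → Ω₁)
    (w : X → Bool) : X → ℝ :=
  fun x => y₀ v x * (if h x ∈ A then sg (w x) else y₁ (z (h x)) x)

/-- the mixed expectation -/
noncomputable def Phi (y₀ : Ω₀ → X → ℝ) (y₁ : Ω₁ → X → ℝ) (c : Finset X → ℝ) (β ξ : ℝ)
    (A : Finset J) : ℝ :=
  Ex fun v : Ω₀ => Ex fun z : J → Ω₁ => Ex fun w : X → Bool =>
    Real.cos (β + ξ * ev c (mixpt h y₀ y₁ A v z w))

/-- the one-bucket estimate, as a property of a family of sign vectors -/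
def OneBucket (y₁ : Ω₁ → X → ℝ) (K : ℝ) : Prop :=
  ∀ (a : X → ℝ) (β : ℝ),
    |Ex (fun ω => Real.cos (β + ∑ x, a x * y₁ ω x)) -
      Ex (fun w : X → Bool => Real.cos (β + ∑ x, a x * sg (w x)))| ≤ K * ∑ x, a x ^ 2

theorem Phi_step (y₀ : Ω₀ → X → ℝ) (y₁ : Ω₁ → X → ℝ) {k : ℕ} (hy₀ : Kw y₀ k)
    (hy₁ : ∀ ω x, y₁ ω x ^ 2 = 1) (K : ℝ) (hOB : OneBucket y₁ K)
    (c : Finset X → ℝ) (hc : ∀ S, c S ≠ 0 → Set.InjOn h (S : Set X))
    (d : ℕ) (hd : ∀ S, d < S.card → c S = 0) (hk : 2 * d ≤ k) (β ξ : ℝ)
    (A : Finset J) (j : J) (hj : j ∉ A) :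
    |Phi h y₀ y₁ c β ξ A - Phi h y₀ y₁ c β ξ (insert j A)| ≤
      K * ξ ^ 2 * ∑ x, if h x = j then H689.inf c x else 0 := by
  have e1 : Phi h y₀ y₁ c β ξ A = Ex fun v : Ω₀ => Ex fun z : J → Ω₁ => Ex fun w : X → Bool =>
      Ex fun ω : Ω₁ => Real.cos (β + ξ * ev c (mixpt h y₀ y₁ A v (Function.update z j ω) w)) := by
    unfold Phi
    refine Ex_congr fun v => ?_
    rw [Ex_update j]
    refine Ex_congr fun z => ?_
    rw [Ex_comm]
  have e2 : Phi h y₀ y₁ c β ξ (insert j A) = Ex fun v : Ω₀ => Ex fun z : J → Ω₁ =>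
      Ex fun w : X → Bool => Ex fun w' : X → Bool =>
        Real.cos (β + ξ * ev c (mixpt h y₀ y₁ (insert j A) v z
          (fun x => if h x = j then w' x else w x))) := by
    unfold Phi
    refine Ex_congr fun v => Ex_congr fun z => ?_
    rw [Ex_resample (fun x => h x = j)]
  -- the pointwise estimate
  have key : ∀ (v : Ω₀) (z : J → Ω₁) (w : X → Bool),
      |(Ex fun ω : Ω₁ => Real.cos (β + ξ * ev c (mixpt h y₀ y₁ A v (Function.update z j ω) w))) -
        (Ex fun w' : X → Bool => Real.cos (β + ξ * ev c (mixpt h y₀ y₁ (insert j A) v z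
          (fun x => if h x = j then w' x else w x))))| ≤
      K * ξ ^ 2 * ∑ x, if h x = j then ev (der c x) (mixpt h y₀ y₁ A v z w) ^ 2 else 0 := by
    intro v z w
    set u := mixpt h y₀ y₁ A v z w with hu
    have m1 : ∀ ω : Ω₁, mixpt h y₀ y₁ A v (Function.update z j ω) w =
        fun x => if h x = j then y₀ v x * y₁ ω x else u x := by
      intro ω
      funext x
      by_cases hx : h x = j
      · simp [mixpt, hx, hj]
      · simp only [mixpt, hx, if_false, hu, Function.update_of_ne hx]
    have m2 : ∀ w' : X → Bool, mixpt h y₀ y₁ (insert j A) v z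
          (fun x => if h x = j then w' x else w x) =
        fun x => if h x = j then y₀ v x * sg (w' x) else u x := by
      intro w'
      funext x
      by_cases hx : h x = j
      · simp [mixpt, hx]
      · simp [mixpt, hx, hu]
    set a : X → ℝ := fun x => if h x = j then ξ * (y₀ v x * ev (der c x) u) else 0 with ha
    have c1 : ∀ s : X → ℝ, β + ξ * ev c (fun x => if h x = j then y₀ v x * s x else u x) =
        (β + ξ * outP h c j u) + ∑ x, a x * s x := by
      intro s
      rw [ev_mix h c hc j u (y₀ v) s, mul_add, mul_sum, add_assoc]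
      congr 2
      refine sum_congr rfl fun x _ => ?_
      simp only [ha]
      split_ifs <;> ring
    have g1 := hOB a (β + ξ * outP h c j u)
    have g2 : ∑ x, a x ^ 2 = ξ ^ 2 * ∑ x, if h x = j then ev (der c x) u ^ 2 else 0 := by
      rw [mul_sum]
      refine sum_congr rfl fun x _ => ?_
      simp only [ha]
      split_ifs
      · rw [mul_pow, mul_pow, hy₀.sq, one_mul]
      · ring
    rw [g2, ← mul_assoc] at g1
    simp only [m1, m2, c1]
    exact g1
  rw [e1, e2, ← Ex_sub]
  refine (abs_Ex_le _).trans ?_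
  have s1 : ∀ v : Ω₀, |(Ex fun z : J → Ω₁ => Ex fun w : X → Bool =>
      Ex fun ω : Ω₁ => Real.cos (β + ξ * ev c (mixpt h y₀ y₁ A v (Function.update z j ω) w))) -
      (Ex fun z : J → Ω₁ => Ex fun w : X → Bool => Ex fun w' : X → Bool =>
        Real.cos (β + ξ * ev c (mixpt h y₀ y₁ (insert j A) v z
          (fun x => if h x = j then w' x else w x))))| ≤
      Ex fun z : J → Ω₁ => Ex fun w : X → Bool =>
        K * ξ ^ 2 * ∑ x, if h x = j then ev (der c x) (mixpt h y₀ y₁ A v z w) ^ 2 else 0 := by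
    intro v
    rw [← Ex_sub]
    refine (abs_Ex_le _).trans (Ex_mono fun z => ?_)
    rw [← Ex_sub]
    exact (abs_Ex_le _).trans (Ex_mono fun w => key v z w)
  refine (Ex_mono s1).trans ?_
  rw [Ex_comm]
  have s2 : ∀ z : J → Ω₁, (Ex fun v : Ω₀ => Ex fun w : X → Bool =>
        K * ξ ^ 2 * ∑ x, if h x = j then ev (der c x) (mixpt h y₀ y₁ A v z w) ^ 2 else 0) =
      K * ξ ^ 2 * ∑ x, if h x = j then H689.inf c x else 0 := by
    intro z
    rw [Ex_comm]
    have s3 : ∀ w : X → Bool, (Ex fun v : Ω₀ =>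
        K * ξ ^ 2 * ∑ x, if h x = j then ev (der c x) (mixpt h y₀ y₁ A v z w) ^ 2 else 0) =
        K * ξ ^ 2 * ∑ x, if h x = j then H689.inf c x else 0 := by
      intro w
      rw [Ex_const_mul, Ex_sum]
      congr 1
      refine sum_congr rfl fun x _ => ?_
      split_ifs with hx
      · rw [← sum_der_sq]
        exact hy₀.Ex_ev_twist_sq (fun x => if h x ∈ A then sg (w x) else y₁ (z (h x)) x)
          (fun x => by
            show (if h x ∈ A then sg (w x) else y₁ (z (h x)) x) ^ 2 = 1
            split_ifs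
            · exact sg_sq _
            · exact hy₁ _ _) (der c x) d (der_card c x d hd) hk
      · rw [Ex_const]
    rw [Ex_congr s3, Ex_const]
  rw [Ex_congr s2, Ex_const]

/-- **Bucket replacement.** -/
theorem Phi_univ (y₀ : Ω₀ → X → ℝ) (y₁ : Ω₁ → X → ℝ) {k : ℕ} (hy₀ : Kw y₀ k)
    (hy₁ : ∀ ω x, y₁ ω x ^ 2 = 1) (K : ℝ) (hOB : OneBucket y₁ K)
    (c : Finset X → ℝ) (hc : ∀ S, c S ≠ 0 → Set.InjOn h (S : Set X))
    (d : ℕ) (hd : ∀ S, d < S.card → c S = 0) (hk : 2 * d ≤ k) (β ξ : ℝ) :
    |Phi h y₀ y₁ c β ξ ∅ - Phi h y₀ y₁ c β ξ univ| ≤ K * ξ ^ 2 * tinf c := by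
  have main : ∀ A : Finset J, |Phi h y₀ y₁ c β ξ ∅ - Phi h y₀ y₁ c β ξ A| ≤
      K * ξ ^ 2 * ∑ x, if h x ∈ A then H689.inf c x else 0 := by
    intro A
    induction A using Finset.induction_on with
    | empty => simp
    | insert j A hj ih =>
      have h1 := Phi_step h y₀ y₁ hy₀ hy₁ K hOB c hc d hd hk β ξ A j hj
      have h2 : ∑ x, (if h x ∈ insert j A then H689.inf c x else 0) =
          (∑ x, if h x ∈ A then H689.inf c x else 0) + ∑ x, if h x = j then H689.inf c x else 0 := by
        rw [← sum_add_distrib]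
        refine sum_congr rfl fun x _ => ?_
        by_cases hx : h x = j
        · simp [hx, hj]
        · simp [hx, mem_insert]
      rw [h2, mul_add]
      calc _ = |(Phi h y₀ y₁ c β ξ ∅ - Phi h y₀ y₁ c β ξ A) +
          (Phi h y₀ y₁ c β ξ A - Phi h y₀ y₁ c β ξ (insert j A))| := by ring_nf
        _ ≤ _ := (abs_add_le _ _).trans (add_le_add ih h1)
  have := main univ
  simpa [sum_inf] using this

end hybrid

end Vale.Agent.P318.H885
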