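import Vale.Agent.P318.H885.Hybrid
import Mathlib.LinearAlgebra.Span.Basic

/-!
# The pseudorandom generator for characters (P318, module PRG)

`prg`: on the code `V` the law of `cos (β + ξ P)`, `P` a multilinear polynomial of degree `d`, is
close to its law on the cube.
-/

namespace Vale.Agent.P318.H885

open Finset Vale.Agent.P318.H689

variable {X : Type*} [Fintype X] [DecidableEq X]

/-- The sign of an element of `F₂`. -/
def zs (a : ZMod 2) : ℝ := if a = 0 then 1 else -1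

@[simp] theorem zs_zero : zs 0 = 1 := by simp [zs]

@[simp] theorem zs_one : zs 1 = -1 := by simp [zs]

theorem zs_sq (a : ZMod 2) : zs a ^ 2 = 1 := by
  unfold zs; split_ifs <;> norm_num

theorem zs_add (a b : ZMod 2) : zs (a + b) = zs a * zs b := by
  have h : ∀ a : ZMod 2, a = 0 ∨ a = 1 := by decide
  have h11 : (1 + 1 : ZMod 2) = 0 := by decide
  rcases h a with rfl | rfl <;> rcases h b with rfl | rfl <;> simp [h11]

theorem zs_sum {ι : Type*} (s : Finset ι) (f : ι → ZMod 2) : zs (∑ i ∈ s, f i) = ∏ i ∈ s, zs (f i) := by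
  classical
  induction s using Finset.induction_on with
  | empty => simp
  | insert i s hi ih => rw [sum_insert hi, prod_insert hi, zs_add, ih]

theorem zs_ne {a : ZMod 2} (ha : a ≠ 0) : zs a = -1 := by simp [zs, ha]

/-- the cube is a `k`-wise independent family for every `k` -/
theorem kw_cube (k : ℕ) : Kw (fun (w : X → Bool) x => sg (w x)) k where
  sq := fun w x => sg_sq _
  van := by
    intro U hU _
    obtain ⟨x₀, hx₀⟩ := hU
    have h1 := Ex_flip (fun x : X => if x = x₀ then (-1 : ℝ) else 1)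
      (fun x => by split_ifs <;> norm_num) (fun u => ∏ x ∈ U, u x)
    have h2 : ∀ w : X → Bool, ∏ x ∈ U, ((if x = x₀ then (-1 : ℝ) else 1) * sg (w x)) =
        - ∏ x ∈ U, sg (w x) := by
      intro w
      rw [prod_mul_distrib, prod_ite_eq' U x₀ (fun _ => (-1 : ℝ)), if_pos hx₀]
      ring
    simp only [h2] at h1
    rw [Ex_neg] at h1
    linarith

/-- the signs of a submodule -/
def vs (V : Submodule (ZMod 2) (X → ZMod 2)) (v : V) (x : X) : ℝ := zs (v.1 x)

omit [Fintype X] [DecidableEq X] in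
theorem kw_sub (V : Submodule (ZMod 2) (X → ZMod 2)) [Fintype V] (k : ℕ)
    (hk : ∀ U : Finset X, U.Nonempty → U.card ≤ k → ∃ v ∈ V, ∑ x ∈ U, v x ≠ 0) :
    Kw (vs V) k where
  sq := fun v x => zs_sq _
  van := by
    intro U hU hUk
    obtain ⟨v₁, hv₁, hne⟩ := hk U hU hUk
    have h1 : ∀ v : V, ∏ x ∈ U, vs V v x = zs (∑ x ∈ U, v.1 x) := by
      intro v
      rw [zs_sum]
      rfl
    have h2 := Ex_equiv (Equiv.addRight (⟨v₁, hv₁⟩ : V)) (fun v : V => ∏ x ∈ U, vs V v x)
    have h3 : ∀ v : V, ∏ x ∈ U, vs V (Equiv.addRight (⟨v₁, hv₁⟩ : V) v) x =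
        - ∏ x ∈ U, vs V v x := by
      intro v
      rw [h1, h1]
      have : ∑ x ∈ U, (Equiv.addRight (⟨v₁, hv₁⟩ : V) v).1 x =
          ∑ x ∈ U, v.1 x + ∑ x ∈ U, v₁ x := by
        rw [← sum_add_distrib]
        rfl
      rw [this, zs_add, zs_ne hne]
      ring
    simp only [h3] at h2
    rw [Ex_neg] at h2
    linarith

omit [DecidableEq X] in
theorem ev_sub (c c' : Finset X → ℝ) (u : X → ℝ) :
    ev c u - ev c' u = ev (fun S => c S - c' S) u := by
  unfold ev
  rw [← sum_sub_distrib]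
  refine sum_congr rfl fun S _ => ?_
  ring

theorem abs_cos_sub_cos_le (a b : ℝ) : |Real.cos a - Real.cos b| ≤ |a - b| := by
  have h := Real.cos_sub_cos a b
  rw [h, abs_mul, abs_mul]
  have h1 : |Real.sin ((a + b) / 2)| ≤ 1 := Real.abs_sin_le_one _
  have h2 : |Real.sin ((a - b) / 2)| ≤ |(a - b) / 2| := Real.abs_sin_le_abs
  calc |(-2 : ℝ)| * |Real.sin ((a + b) / 2)| * |Real.sin ((a - b) / 2)|
      ≤ 2 * 1 * |(a - b) / 2| := by
        have : |(-2 : ℝ)| = 2 := by norm_num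
        rw [this]
        gcongr
    _ = |a - b| := by rw [abs_div]; norm_num; ring

/-- truncation error -/
theorem trunc {Ω : Type*} [Fintype Ω] [Nonempty Ω] {y : Ω → X → ℝ} {k : ℕ} (hy : Kw y k)
    (c c' : Finset X → ℝ) (d : ℕ) (hc : ∀ S, d < S.card → c S = 0)
    (hc' : ∀ S, d < S.card → c' S = 0) (hk : 2 * d ≤ k) (β ξ : ℝ) :
    |Ex (fun ω => Real.cos (β + ξ * ev c (y ω))) - Ex (fun ω => Real.cos (β + ξ * ev c' (y ω)))| ≤
      |ξ| * Real.sqrt (∑ S, (c S - c' S) ^ 2) := by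
  rw [← Ex_sub]
  have h1 : ∀ ω, |Real.cos (β + ξ * ev c (y ω)) - Real.cos (β + ξ * ev c' (y ω))| ≤
      |ξ| * (|ev (fun S => c S - c' S) (y ω)| * 1) := by
    intro ω
    refine (abs_cos_sub_cos_le _ _).trans (le_of_eq ?_)
    rw [mul_one, ← abs_mul, ← ev_sub]
    congr 1
    ring
  refine (abs_Ex_le _).trans ((Ex_mono h1).trans ?_)
  rw [Ex_const_mul]
  refine mul_le_mul_of_nonneg_left ?_ (abs_nonneg _)
  refine (Ex_mul_le_sqrt _ _).trans ?_
  have h2 := hy.Ex_ev_sq (fun S => c S - c' S) d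
    (fun S hS => by rw [hc S hS, hc' S hS, sub_zero]) hk
  simp only [sq_abs, one_pow]
  rw [h2, Ex_const, Real.sqrt_one, mul_one]

section code

variable {J : Type*} [Fintype J] [DecidableEq J]
variable (V V₁ : Submodule (ZMod 2) (X → ZMod 2)) [Fintype V] [Fintype V₁]

/-- bucket replacement on a code, for one hash function, coefficients on transversal sets -/
theorem prg_transversal (k : ℕ)
    (hk : ∀ U : Finset X, U.Nonempty → U.card ≤ k → ∃ v ∈ V, ∑ x ∈ U, v x ≠ 0)
    (K : ℝ) (hOB : OneBucket (vs V₁) K) (h : X → J)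
    (hcomb : ∀ z : J → V₁, (fun x => (z (h x)).1 x) ∈ V)
    (c : Finset X → ℝ) (hc : ∀ S, c S ≠ 0 → Set.InjOn h (S : Set X))
    (d : ℕ) (hd : ∀ S, d < S.card → c S = 0) (hdk : 2 * d ≤ k) (β ξ : ℝ) :
    |Ex (fun v : V => Real.cos (β + ξ * ev c (vs V v))) -
      Ex (fun w : X → Bool => Real.cos (β + ξ * ev c fun x => sg (w x)))| ≤
      K * ξ ^ 2 * tinf c := by
  have h0 := Phi_univ h (vs V) (vs V₁) (kw_sub V k hk) (fun ω x => zs_sq _) K hOB c hc d hd hdk β ξ
  have e1 : Phi h (vs V) (vs V₁) c β ξ ∅ =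
      Ex (fun v : V => Real.cos (β + ξ * ev c (vs V v))) := by
    unfold Phi
    rw [Ex_comm]
    have : ∀ z : J → V₁, (Ex fun v : V => Ex fun w : X → Bool =>
        Real.cos (β + ξ * ev c (mixpt h (vs V) (vs V₁) ∅ v z w))) =
        Ex (fun v : V => Real.cos (β + ξ * ev c (vs V v))) := by
      intro z
      rw [← Ex_equiv (Equiv.addRight (⟨_, hcomb z⟩ : V))
        (fun v : V => Real.cos (β + ξ * ev c (vs V v)))]
      refine Ex_congr fun v => ?_
      have h1 : ∀ w : X → Bool, mixpt h (vs V) (vs V₁) ∅ v z w =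
          vs V (Equiv.addRight (⟨_, hcomb z⟩ : V) v) := by
        intro w
        funext x
        simp only [mixpt, notMem_empty, if_false]
        show zs (v.1 x) * zs ((z (h x)).1 x) = zs (v.1 x + (z (h x)).1 x)
        rw [zs_add]
      simp only [h1]
      rw [Ex_const]
    rw [Ex_congr this, Ex_const]
  have e2 : Phi h (vs V) (vs V₁) c β ξ univ =
      Ex (fun w : X → Bool => Real.cos (β + ξ * ev c fun x => sg (w x))) := by
    unfold Phi
    have : ∀ v : V, (Ex fun z : J → V₁ => Ex fun w : X → Bool =>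
        Real.cos (β + ξ * ev c (mixpt h (vs V) (vs V₁) univ v z w))) =
        Ex (fun w : X → Bool => Real.cos (β + ξ * ev c fun x => sg (w x))) := by
      intro v
      have h1 : ∀ z : J → V₁, (Ex fun w : X → Bool =>
          Real.cos (β + ξ * ev c (mixpt h (vs V) (vs V₁) univ v z w))) =
          Ex (fun w : X → Bool => Real.cos (β + ξ * ev c fun x => sg (w x))) := by
        intro z
        have h2 := Ex_flip (vs V v) (fun x => zs_sq _) (fun u => Real.cos (β + ξ * ev c u))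
        rw [← h2]
        refine Ex_congr fun w => ?_
        congr 4
        funext x
        simp only [mixpt, mem_univ, if_true]
      rw [Ex_congr h1, Ex_const]
    rw [Ex_congr this, Ex_const]
  rw [e1, e2] at h0
  exact h0

variable {Θ : Type*} [Fintype Θ] [Nonempty Θ]

open Classical in
/-- **PRG for characters.** -/
theorem prg (k : ℕ)
    (hk : ∀ U : Finset X, U.Nonempty → U.card ≤ k → ∃ v ∈ V, ∑ x ∈ U, v x ≠ 0)
    (K : ℝ) (hK : 0 ≤ K) (hOB : OneBucket (vs V₁) K) (h : Θ → X → J)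
    (hcomb : ∀ θ, ∀ z : J → V₁, (fun x => (z (h θ x)).1 x) ∈ V)
    (p : ℝ) (hp : 0 ≤ p) (hcoll : ∀ x x' : X, x ≠ x' →
      ((univ.filter fun θ => h θ x = h θ x').card : ℝ) ≤ p * Fintype.card Θ)
    (c : Finset X → ℝ) (d : ℕ) (hd : ∀ S, d < S.card → c S = 0) (hdk : 2 * d ≤ k) (β ξ : ℝ) :
    |Ex (fun v : V => Real.cos (β + ξ * ev c (vs V v))) -
      Ex (fun w : X → Bool => Real.cos (β + ξ * ev c fun x => sg (w x)))| ≤
      2 * |ξ| * (d * Real.sqrt (p * ∑ S, c S ^ 2)) + K * ξ ^ 2 * tinf c := by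
  -- the truncated coefficients
  set c' : Θ → Finset X → ℝ := fun θ S => if Set.InjOn (h θ) (S : Set X) then c S else 0 with hc'
  have hΘ : (0 : ℝ) < Fintype.card Θ := by exact_mod_cast Fintype.card_pos
  have q1 : ∀ S : Finset X, c S ^ 2 * ((univ.filter fun θ => ¬ Set.InjOn (h θ) (S : Set X)).card : ℝ)
      ≤ c S ^ 2 * ((d : ℝ) ^ 2 * p * Fintype.card Θ) := by
    intro S
    by_cases hS : c S = 0
    · simp [hS]
    have hSd : S.card ≤ d := by
      by_contra hlt
      exact hS (hd S (by omega))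
    refine mul_le_mul_of_nonneg_left ?_ (sq_nonneg _)
    have hsub : (univ.filter fun θ => ¬ Set.InjOn (h θ) (S : Set X)) ⊆
        S.offDiag.biUnion fun q => univ.filter fun θ => h θ q.1 = h θ q.2 := by
      intro θ hθ
      simp only [mem_filter, mem_univ, true_and] at hθ
      unfold Set.InjOn at hθ
      push Not at hθ
      obtain ⟨x, hx, x', hx', he, hne⟩ := hθ
      simp only [mem_biUnion, mem_offDiag, mem_filter, mem_univ, true_and]
      exact ⟨(x, x'), ⟨mem_coe.1 hx, mem_coe.1 hx', hne⟩, he⟩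
    have h1 : ((univ.filter fun θ => ¬ Set.InjOn (h θ) (S : Set X)).card : ℝ) ≤
        ∑ q ∈ S.offDiag, ((univ.filter fun θ => h θ q.1 = h θ q.2).card : ℝ) := by
      exact_mod_cast (card_le_card hsub).trans card_biUnion_le
    have hne : ∀ q ∈ S.offDiag, ((univ.filter fun θ => h θ q.1 = h θ q.2).card : ℝ) ≤
        p * Fintype.card Θ := fun q hq => hcoll _ _ (mem_offDiag.1 hq).2.2
    have h2 := h1.trans (sum_le_sum hne)
    rw [sum_const, nsmul_eq_mul] at h2
    refine h2.trans ?_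
    have h4 : (S.offDiag.card : ℝ) ≤ (d : ℝ) ^ 2 := by
      rw [offDiag_card]
      have : S.card * S.card - S.card ≤ d ^ 2 := by
        calc _ ≤ S.card * S.card := Nat.sub_le _ _
          _ ≤ d * d := Nat.mul_le_mul hSd hSd
          _ = d ^ 2 := (pow_two d).symm
      exact_mod_cast this
    rw [mul_assoc]
    gcongr
  -- the total truncated mass
  have q2 : ∀ θ, ∑ S, (c S - c' θ S) ^ 2 =
      ∑ S : Finset X, if ¬ Set.InjOn (h θ) (S : Set X) then c S ^ 2 else 0 := by
    intro θ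
    refine sum_congr rfl fun S _ => ?_
    simp only [hc']
    by_cases hi : Set.InjOn (h θ) (S : Set X) <;> simp [hi]
  have q3 : ∑ θ, ∑ S, (c S - c' θ S) ^ 2 ≤ ∑ θ : Θ, (d : ℝ) ^ 2 * p * ∑ S, c S ^ 2 := by
    calc ∑ θ, ∑ S, (c S - c' θ S) ^ 2
        = ∑ θ, ∑ S : Finset X, (if ¬ Set.InjOn (h θ) (S : Set X) then c S ^ 2 else 0) :=
          sum_congr rfl fun θ _ => q2 θ
      _ = ∑ S : Finset X, ∑ θ, (if ¬ Set.InjOn (h θ) (S : Set X) then c S ^ 2 else 0) := sum_comm
      _ = ∑ S : Finset X,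
          c S ^ 2 * ((univ.filter fun θ => ¬ Set.InjOn (h θ) (S : Set X)).card : ℝ) := by
          refine sum_congr rfl fun S _ => ?_
          rw [← sum_filter, sum_const, nsmul_eq_mul, mul_comm]
      _ ≤ ∑ S, c S ^ 2 * ((d : ℝ) ^ 2 * p * Fintype.card Θ) := sum_le_sum fun S _ => q1 S
      _ = ∑ θ : Θ, (d : ℝ) ^ 2 * p * ∑ S, c S ^ 2 := by
          rw [sum_const, card_univ, nsmul_eq_mul, ← sum_mul]
          ring
  obtain ⟨θ, -, hθ⟩ := Finset.exists_le_of_sum_le (s := (univ : Finset Θ)) univ_nonempty q3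
  have hc1 : ∀ S, c' θ S ≠ 0 → Set.InjOn (h θ) (S : Set X) := by
    intro S hS
    by_contra hi
    exact hS (by simp [hc', hi])
  have hd1 : ∀ S, d < S.card → c' θ S = 0 := by
    intro S hS
    simp [hc', hd S hS]
  have t1 := trunc (kw_sub V k hk) c (c' θ) d hd hd1 hdk β ξ
  have t2 := trunc (kw_cube (X := X) k) c (c' θ) d hd hd1 hdk β ξ
  have t3 := prg_transversal V V₁ k hk K hOB (h θ) (hcomb θ) (c' θ) hc1 d hd1 hdk β ξ
  have t4 : Real.sqrt (∑ S, (c S - c' θ S) ^ 2) ≤ d * Real.sqrt (p * ∑ S, c S ^ 2) := by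
    refine (Real.sqrt_le_sqrt hθ).trans (le_of_eq ?_)
    rw [mul_assoc, Real.sqrt_mul (sq_nonneg _), Real.sqrt_sq (Nat.cast_nonneg d)]
  have t5 : tinf (c' θ) ≤ tinf c := by
    unfold tinf
    refine sum_le_sum fun S _ => ?_
    simp only [hc']
    split_ifs
    · exact le_rfl
    · simp only [ne_eq, OfNat.ofNat_ne_zero, not_false_eq_true, zero_pow, mul_zero]
      positivity
  have t6 : |ξ| * Real.sqrt (∑ S, (c S - c' θ S) ^ 2) ≤ |ξ| * (d * Real.sqrt (p * ∑ S, c S ^ 2)) :=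
    mul_le_mul_of_nonneg_left t4 (abs_nonneg _)
  have t7 : K * ξ ^ 2 * tinf (c' θ) ≤ K * ξ ^ 2 * tinf c :=
    mul_le_mul_of_nonneg_left t5 (mul_nonneg hK (sq_nonneg _))
  rw [abs_le] at t1 t2 t3 ⊢
  constructor <;> linarith [t1.1, t1.2, t2.1, t2.2, t3.1, t3.2]

end code

end Vale.Agent.P318.H885
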